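import Mathlib

noncomputable section

namespace Vale.Agent.Lib.P194

open MonoidAlgebra

universe u v w

/-- A multiplicative injection of a monoid into a directly finite ring, not assumed unital,
transfers direct finiteness. -/
theorem dedekind_of_corner {A : Type u} {B : Type v} [Monoid A] [Ring B]
    [IsDedekindFiniteMonoid B] (φ : A → B) (hmul : ∀ x y, φ (x * y) = φ x * φ y)
    (hinj : Function.Injective φ) : IsDedekindFiniteMonoid A := by
  refine ⟨fun {x y} hxy => ?_⟩
  set e := φ 1 with he
  have hee : e * e = e := by rw [he, ← hmul, one_mul]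
  have hl : ∀ z, e * φ z = φ z := fun z => by rw [he, ← hmul, one_mul]
  have hr : ∀ z, φ z * e = φ z := fun z => by rw [he, ← hmul, mul_one]
  have hab : φ x * φ y = e := by rw [← hmul, hxy]
  have e3 : (1 - e) * (1 - e) = 1 - e := by
    noncomm_ring; rw [hee]; abel
  have h1 : (φ x + (1 - e)) * (φ y + (1 - e)) = 1 := by
    have e1 : φ x * (1 - e) = 0 := by rw [mul_sub, mul_one, hr, sub_self]
    have e2 : (1 - e) * φ y = 0 := by rw [sub_mul, one_mul, hl, sub_self]
    rw [add_mul, mul_add, mul_add, hab, e1, e2, e3]; abel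
  have h2 : (φ y + (1 - e)) * (φ x + (1 - e)) = 1 := mul_eq_one_symm h1
  have e1 : φ y * (1 - e) = 0 := by rw [mul_sub, mul_one, hr, sub_self]
  have e2 : (1 - e) * φ x = 0 := by rw [sub_mul, one_mul, hl, sub_self]
  rw [add_mul, mul_add, mul_add, e1, e2, e3] at h2
  have h3 : φ y * φ x = e := by
    have h4 : φ y * φ x + (1 - e) = 1 := by simpa using h2
    linear_combination (norm := abel) h4
  apply hinj
  rw [hmul, h3]

section MatrixUnits

variable {A : Type u} {B : Type v} [Ring A] [Ring B] {I : Type w} [Fintype I] [DecidableEq I]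

/-- The map from a matrix ring to a ring containing matrix units commuting with the image of
the coefficient ring. -/
def matMap (ι : A →+* B) (E : I → I → B) (X : Matrix I I A) : B :=
  ∑ i, ∑ j, ι (X i j) * E i j

theorem matMap_mul (ι : A →+* B) (E : I → I → B)
    (hE : ∀ i j k l, E i j * E k l = if j = k then E i l else 0)
    (hc : ∀ a i j, Commute (ι a) (E i j)) (X Y : Matrix I I A) :
    matMap ι E (X * Y) = matMap ι E X * matMap ι E Y := by
  classical
  have key : ∀ i j k l, ι (X i j) * E i j * (ι (Y k l) * E k l)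
      = if j = k then ι (X i j) * ι (Y k l) * E i l else 0 := by
    intro i j k l
    have : ι (X i j) * E i j * (ι (Y k l) * E k l) = ι (X i j) * ι (Y k l) * (E i j * E k l) := by
      rw [mul_assoc, mul_assoc, ← mul_assoc (E i j), (hc (Y k l) i j).eq.symm, mul_assoc]
    rw [this, hE]
    split_ifs <;> simp
  unfold matMap
  rw [Finset.sum_mul]
  apply Finset.sum_congr rfl
  intro i _
  rw [Finset.sum_mul]
  simp only [Matrix.mul_apply, map_sum, map_mul, Finset.sum_mul]
  simp only [Finset.mul_sum, key]
  rw [Finset.sum_comm]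
  apply Finset.sum_congr rfl
  intro j _
  simp

theorem matMap_add (ι : A →+* B) (E : I → I → B) (X Y : Matrix I I A) :
    matMap ι E (X + Y) = matMap ι E X + matMap ι E Y := by
  unfold matMap
  simp only [Matrix.add_apply, map_add, add_mul, Finset.sum_add_distrib]

theorem matMap_sub (ι : A →+* B) (E : I → I → B) (X Y : Matrix I I A) :
    matMap ι E (X - Y) = matMap ι E X - matMap ι E Y := by
  unfold matMap
  simp only [Matrix.sub_apply, map_sub, sub_mul, Finset.sum_sub_distrib]

theorem matMap_sandwich (ι : A →+* B) (E : I → I → B)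
    (hE : ∀ i j k l, E i j * E k l = if j = k then E i l else 0)
    (hc : ∀ a i j, Commute (ι a) (E i j)) (X : Matrix I I A) (i₀ a b : I) :
    E i₀ a * matMap ι E X * E b i₀ = ι (X a b) * E i₀ i₀ := by
  classical
  unfold matMap
  rw [Finset.mul_sum, Finset.sum_mul]
  simp only [Finset.mul_sum, Finset.sum_mul]
  have key : ∀ i j, E i₀ a * (ι (X i j) * E i j) * E b i₀ =
      if a = i then (if j = b then ι (X i j) * E i₀ i₀ else 0) else 0 := by
    intro i j
    have h1 : E i₀ a * (ι (X i j) * E i j) * E b i₀ = ι (X i j) * (E i₀ a * E i j * E b i₀) := by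
      rw [← mul_assoc, ← (hc (X i j) i₀ a).eq]
      simp only [mul_assoc]
    rw [h1, hE]
    by_cases h : a = i
    · subst h
      simp only [if_true]
      rw [hE]
      split_ifs <;> simp
    · simp [h]
  simp only [key]
  simp

/-- Matrix units in a directly finite ring whose `(i₀, i₀)` entry kills no nonzero coefficient
yield direct finiteness of the matrix ring. -/
theorem matrix_dedekind_of_units [IsDedekindFiniteMonoid B] (ι : A →+* B) (E : I → I → B)
    (hE : ∀ i j k l, E i j * E k l = if j = k then E i l else 0)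
    (hc : ∀ a i j, Commute (ι a) (E i j)) (i₀ : I)
    (hinj : ∀ a, ι a * E i₀ i₀ = 0 → a = 0) :
    IsDedekindFiniteMonoid (Matrix I I A) := by
  refine dedekind_of_corner (matMap ι E) (matMap_mul ι E hE hc) ?_
  intro X Y hXY
  ext a b
  have hz : matMap ι E (X - Y) = 0 := by rw [matMap_sub, hXY, sub_self]
  have := matMap_sandwich ι E hE hc (X - Y) i₀ a b
  rw [hz, mul_zero, zero_mul] at this
  have h0 := hinj _ this.symm
  simpa [sub_eq_zero] using h0

end MatrixUnits

end Vale.Agent.Lib.P194
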