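import Mathlib
import Vale.Agent.Lib.P194.Corner

set_option linter.unusedSectionVars false
set_option linter.unusedSimpArgs false

noncomputable section

namespace Vale.Agent.Lib.P194

open MonoidAlgebra

universe u v w

section Avg

variable {K : Type u} {B : Type v} [Field K] [Ring B] [Algebra K B]
variable {L : Type w} [AddGroup L] [Fintype L]

/-- The scaled sum of a family indexed by a finite additive group. -/
def avg (c : K) (x : L → B) : B := c • ∑ l, x l

theorem mul_avg_self (c : K) (x : L → B) (hx : ∀ a b, x (a + b) = x a * x b) (l₀ : L) :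
    x l₀ * avg c x = avg c x := by
  unfold avg
  rw [mul_smul_comm, Finset.mul_sum]
  congr 1
  simp_rw [← hx]
  exact Equiv.sum_comp (Equiv.addLeft l₀) x

theorem avg_mul_of_absorb (c : K) (x : L → B) (hc : c * (Fintype.card L : K) = 1) (y : B)
    (hy : ∀ l, x l * y = y) : avg c x * y = y := by
  unfold avg
  rw [smul_mul_assoc, Finset.sum_mul]
  simp_rw [hy]
  rw [Finset.sum_const, Finset.card_univ, ← Nat.cast_smul_eq_nsmul K, smul_smul, hc, one_smul]

end Avg

section Wreath

variable {I : Type u} [Fintype I] [DecidableEq I] {q : ℕ} [NeZero q]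

/-- The group used for the matrix units. -/
abbrev PS (I : Type u) (q : ℕ) := Equiv.Perm (I × ZMod q)

/-- Shifting each block of `I × ZMod q` by its own amount. -/
def shift (r : I → ZMod q) : PS I q where
  toFun x := (x.1, x.2 + r x.1)
  invFun x := (x.1, x.2 - r x.1)
  left_inv x := by simp
  right_inv x := by simp

@[simp] theorem shift_apply (r : I → ZMod q) (x : I × ZMod q) : shift r x = (x.1, x.2 + r x.1) :=
  rfl

theorem shift_add (r s : I → ZMod q) : shift (r + s) = shift r * shift s := by
  ext x <;> simp [add_comm, add_assoc, add_left_comm]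

theorem shift_comm (r s : I → ZMod q) : shift r * shift s = shift s * shift r := by
  rw [← shift_add, ← shift_add, add_comm]

/-- Permuting the blocks of `I × ZMod q`. -/
def blockPerm (σ : Equiv.Perm I) : PS I q :=
  Equiv.prodCongr σ (Equiv.refl _)

@[simp] theorem blockPerm_apply (σ : Equiv.Perm I) (x : I × ZMod q) :
    blockPerm σ x = (σ x.1, x.2) := rfl

theorem blockPerm_mul (σ τ : Equiv.Perm I) :
    (blockPerm (σ * τ) : PS I q) = blockPerm σ * blockPerm τ := by
  ext x <;> simp

theorem blockPerm_one : (blockPerm (1 : Equiv.Perm I) : PS I q) = 1 := by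
  ext x <;> simp

theorem shift_mul_blockPerm (r : I → ZMod q) (σ : Equiv.Perm I) :
    shift r * blockPerm σ = blockPerm σ * shift (r ∘ σ) := by
  ext x <;> simp

variable (K : Type v) [Field K]

/-- Image of a permutation in the group algebra. -/
abbrev pt (s : PS I q) : MonoidAlgebra K (PS I q) := single s 1

theorem pt_mul (s t : PS I q) : pt K s * pt K t = pt K (s * t) := by
  simp [pt, single_mul_single]

theorem pt_one : pt K (1 : PS I q) = 1 := rfl

/-- The family of shifts of the block `i₀`. -/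
def xF (i₀ : I) (a : ZMod q) : MonoidAlgebra K (PS I q) := pt K (shift (Pi.single i₀ a))

/-- The family of shifts of all blocks other than `i₀`. -/
def xQ (i₀ : I) (r : I → ZMod q) : MonoidAlgebra K (PS I q) :=
  pt K (shift (Function.update r i₀ 0))

theorem xF_add (i₀ : I) (a b : ZMod q) : xF K i₀ (a + b) = xF K i₀ a * xF K i₀ b := by
  unfold xF
  rw [pt_mul, ← shift_add, Pi.single_add]

theorem xQ_add (i₀ : I) (r s : I → ZMod q) : xQ K i₀ (r + s) = xQ K i₀ r * xQ K i₀ s := by
  unfold xQ
  rw [pt_mul, ← shift_add]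
  congr 2
  ext i
  by_cases h : i = i₀
  · subst h; simp
  · simp [Function.update_of_ne h]

/-- The averaging element over the shifts of the block `i₀`. -/
def fAvg (i₀ : I) : MonoidAlgebra K (PS I q) :=
  avg ((q : K)⁻¹) (xF K i₀)

/-- The averaging element over the shifts of all blocks other than `i₀`. -/
def qAvg (i₀ : I) : MonoidAlgebra K (PS I q) :=
  avg ((Fintype.card (I → ZMod q) : K)⁻¹) (xQ K i₀)

/-- The basic idempotent. -/
def eIdem (i₀ : I) : MonoidAlgebra K (PS I q) := (1 - fAvg K i₀) * qAvg K i₀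

variable {K}
variable (hq : (q : K) ≠ 0)

include hq

theorem card_T_ne : ((Fintype.card (I → ZMod q) : ℕ) : K) ≠ 0 := by
  rw [Fintype.card_fun, ZMod.card]
  push_cast
  exact pow_ne_zero _ hq

theorem card_q : (q : K)⁻¹ * ((Fintype.card (ZMod q) : ℕ) : K) = 1 := by
  rw [ZMod.card]; exact inv_mul_cancel₀ hq

theorem card_T : ((Fintype.card (I → ZMod q) : ℕ) : K)⁻¹ * ((Fintype.card (I → ZMod q) : ℕ) : K) = 1 :=
  inv_mul_cancel₀ (card_T_ne hq)

omit hq in
theorem xF_mul_fAvg (i₀ : I) (a : ZMod q) : xF K i₀ a * fAvg K i₀ = fAvg K i₀ :=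
  mul_avg_self _ _ (xF_add K i₀) a

omit hq in
theorem xQ_mul_qAvg (i₀ : I) (r : I → ZMod q) : xQ K i₀ r * qAvg K i₀ = qAvg K i₀ :=
  mul_avg_self _ _ (xQ_add K i₀) r

theorem fAvg_mul_fAvg (i₀ : I) : fAvg K i₀ * fAvg K i₀ = fAvg K (q := q) i₀ :=
  avg_mul_of_absorb _ _ (card_q hq) _ (xF_mul_fAvg i₀)

theorem qAvg_mul_qAvg (i₀ : I) : qAvg K i₀ * qAvg K i₀ = qAvg K (q := q) i₀ :=
  avg_mul_of_absorb _ _ (card_T hq) _ (xQ_mul_qAvg i₀)

omit hq in
theorem xF_comm_xQ (i₀ : I) (a : ZMod q) (r : I → ZMod q) :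
    Commute (xF K i₀ a) (xQ K i₀ r) := by
  unfold xF xQ Commute SemiconjBy
  rw [pt_mul, pt_mul, shift_comm]

omit hq in
theorem fAvg_comm_qAvg (i₀ : I) : Commute (fAvg K (q := q) i₀) (qAvg K i₀) := by
  unfold fAvg qAvg avg
  refine Commute.smul_left (Commute.smul_right ?_ _) _
  refine Commute.sum_left _ _ _ fun a _ => Commute.sum_right _ _ _ fun r _ => ?_
  exact xF_comm_xQ i₀ a r

theorem eIdem_mul_fAvg (i₀ : I) : eIdem K (q := q) i₀ * fAvg K i₀ = 0 := by
  unfold eIdem
  rw [mul_assoc, (fAvg_comm_qAvg i₀).eq.symm, ← mul_assoc, sub_mul, one_mul, fAvg_mul_fAvg hq,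
    sub_self, zero_mul]

theorem eIdem_mul_eIdem (i₀ : I) : eIdem K (q := q) i₀ * eIdem K i₀ = eIdem K i₀ := by
  unfold eIdem
  have hc := fAvg_comm_qAvg (K := K) (q := q) i₀
  have h1 : Commute (1 - fAvg K (q := q) i₀) (qAvg K i₀) := (Commute.one_left _).sub_left hc
  calc (1 - fAvg K (q := q) i₀) * qAvg K i₀ * ((1 - fAvg K i₀) * qAvg K i₀)
      = (1 - fAvg K i₀) * (1 - fAvg K i₀) * (qAvg K i₀ * qAvg K i₀) := by
        rw [mul_assoc, ← mul_assoc (qAvg K i₀), h1.eq.symm]
        simp only [mul_assoc]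
    _ = (1 - fAvg K i₀) * qAvg K i₀ := by
        rw [qAvg_mul_qAvg hq]
        congr 1
        rw [sub_mul, mul_sub, mul_sub, one_mul, mul_one, one_mul, fAvg_mul_fAvg hq]
        abel

/-- The key orthogonality: conjugating the idempotent by a block permutation that moves `i₀`
gives something orthogonal to it. -/
theorem eIdem_mul_pt_mul_eIdem (i₀ : I) (σ : Equiv.Perm I) (hσ : σ⁻¹ i₀ ≠ i₀) :
    eIdem K (q := q) i₀ * pt K (blockPerm σ) * eIdem K i₀ = 0 := by
  -- absorption
  have h1 : ∀ a : ZMod q, xF K i₀ a * (pt K (blockPerm σ) * qAvg K i₀)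
      = pt K (blockPerm σ) * qAvg K i₀ := by
    intro a
    obtain ⟨j, hj⟩ : ∃ j, j = σ⁻¹ i₀ := ⟨_, rfl⟩
    rw [← hj] at hσ
    have hj' : σ j = i₀ := by rw [hj]; simp
    have hcomp : (Pi.single i₀ a : I → ZMod q) ∘ σ = Pi.single j a := by
      ext i
      simp only [Function.comp, Pi.single_apply]
      by_cases h : i = j
      · subst h; simp [hj']
      · have h' : σ i ≠ i₀ := fun h' => h (σ.injective (h'.trans hj'.symm))
        simp [h, h']
    have hupd : Function.update (Pi.single j a : I → ZMod q) i₀ 0 = Pi.single j a := by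
      ext i
      by_cases h : i = i₀
      · subst h
        simp [Pi.single_apply, hσ, Ne.symm hσ]
      · simp [Function.update_of_ne h]
    calc xF K i₀ a * (pt K (blockPerm σ) * qAvg K i₀)
        = pt K (blockPerm σ) * xQ K i₀ (Pi.single j a) * qAvg K i₀ := by
          unfold xF xQ
          rw [← mul_assoc, pt_mul, pt_mul, shift_mul_blockPerm, hcomp, hupd]
      _ = pt K (blockPerm σ) * qAvg K i₀ := by
          rw [mul_assoc, xQ_mul_qAvg]
  have h2 : fAvg K (q := q) i₀ * (pt K (blockPerm σ) * qAvg K i₀)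
      = pt K (blockPerm σ) * qAvg K i₀ :=
    avg_mul_of_absorb _ _ (card_q hq) _ h1
  have h3 : eIdem K (q := q) i₀ * (pt K (blockPerm σ) * qAvg K i₀) = 0 := by
    rw [← h2, ← mul_assoc, eIdem_mul_fAvg hq, zero_mul]
  have hc := fAvg_comm_qAvg (K := K) (q := q) i₀
  have h4 : Commute (1 - fAvg K (q := q) i₀) (qAvg K i₀) := (Commute.one_left _).sub_left hc
  calc eIdem K (q := q) i₀ * pt K (blockPerm σ) * eIdem K i₀
      = eIdem K (q := q) i₀ * (pt K (blockPerm σ) * qAvg K i₀) * (1 - fAvg K i₀) := by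
        conv_lhs => rw [show eIdem K (q := q) i₀ * pt K (blockPerm σ) * eIdem K i₀
          = eIdem K (q := q) i₀ * pt K (blockPerm σ) * ((1 - fAvg K i₀) * qAvg K i₀) from rfl]
        rw [h4.eq]
        simp only [mul_assoc]
    _ = 0 := by rw [h3, zero_mul]

/-- A linear functional used to show the idempotent is nonzero. -/
def ell (i₀ : I) (one' : ZMod q) : MonoidAlgebra K (PS I q) →ₗ[K] K where
  toFun y := Finsupp.linearCombination K
    (fun s : PS I q => if s (i₀, 0) = (i₀, one') then (1 : K) else 0) y.coeff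
  map_add' x y := by simp
  map_smul' c x := by simp

omit hq in
theorem ell_pt (i₀ : I) (one' : ZMod q) (s : PS I q) :
    ell (K := K) i₀ one' (pt K s) = if s (i₀, 0) = (i₀, one') then (1 : K) else 0 := by
  simp [ell]

omit hq in
theorem ell_avg {L : Type w} [AddGroup L] [Fintype L] (i₀ : I) (one' : ZMod q) (c : K)
    (x : L → MonoidAlgebra K (PS I q)) :
    ell (K := K) i₀ one' (avg c x) = c * ∑ l, ell (K := K) i₀ one' (x l) := by
  unfold avg
  rw [map_smul, map_sum, smul_eq_mul]

omit hq in
theorem ell_qAvg (i₀ : I) (one' : ZMod q) (h1 : one' ≠ 0) :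
    ell (K := K) i₀ one' (qAvg K i₀) = 0 := by
  unfold qAvg
  rw [ell_avg]
  have : ∀ r : I → ZMod q, ell (K := K) i₀ one' (xQ K i₀ r) = 0 := by
    intro r
    unfold xQ
    rw [ell_pt]
    simp [Ne.symm h1]
  simp [this]

theorem ell_fAvg_mul_qAvg (i₀ : I) (one' : ZMod q) :
    ell (K := K) i₀ one' (fAvg K i₀ * qAvg K i₀) = (q : K)⁻¹ := by
  have key : ∀ (a : ZMod q) (r : I → ZMod q),
      ell (K := K) i₀ one' (xF K i₀ a * xQ K i₀ r) = if a = one' then 1 else 0 := by
    intro a r
    unfold xF xQ
    rw [pt_mul, ell_pt]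
    simp
  unfold fAvg qAvg avg
  rw [smul_mul_assoc, mul_smul_comm, Finset.sum_mul_sum, map_smul, map_smul, map_sum]
  simp only [map_sum, key, smul_eq_mul]
  rw [Finset.sum_comm]
  simp only [Finset.sum_ite_eq', Finset.mem_univ, if_true, Finset.sum_const, Finset.card_univ,
    nsmul_eq_mul, mul_one]
  have h := card_T_ne (I := I) hq
  field_simp

theorem eIdem_ne_zero (i₀ : I) (h1 : (1 : ZMod q) ≠ 0) : eIdem K (q := q) i₀ ≠ 0 := by
  intro h
  have h2 := congrArg (ell (K := K) i₀ 1) h
  unfold eIdem at h2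
  rw [sub_mul, one_mul, map_sub, ell_qAvg _ _ h1, ell_fAvg_mul_qAvg hq, map_zero] at h2
  have h3 : ((q : K)⁻¹) = 0 := by simpa using h2
  exact inv_ne_zero hq h3

end Wreath

section Product

variable {K : Type v} [Field K] {G : Type u} [Group G] {S : Type w} [Group S]

/-- The inclusion `K[G] → K[G × S]`. -/
def iotaG : MonoidAlgebra K G →+* MonoidAlgebra K (G × S) :=
  mapDomainRingHom K (MonoidHom.inl G S)

/-- The inclusion `K[S] → K[G × S]`. -/
def iotaS : MonoidAlgebra K S →+* MonoidAlgebra K (G × S) :=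
  mapDomainRingHom K (MonoidHom.inr G S)

theorem iotaG_single (g : G) (c : K) : iotaG (S := S) (single g c) = single (g, 1) c := by
  simp [iotaG]

theorem iotaS_single (s : S) (c : K) : iotaS (G := G) (single s c) = single (1, s) c := by
  simp [iotaS]

theorem iota_commute (a : MonoidAlgebra K G) (y : MonoidAlgebra K S) :
    Commute (iotaG (S := S) a) (iotaS (G := G) y) := by
  induction a using MonoidAlgebra.induction_linear with
  | zero => simp
  | add a b ha hb => rw [map_add]; exact ha.add_left hb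
  | single g c =>
    induction y using MonoidAlgebra.induction_linear with
    | zero => simp
    | add a b ha hb => rw [map_add]; exact ha.add_right hb
    | single s d =>
      rw [iotaG_single, iotaS_single]
      unfold Commute SemiconjBy
      simp [single_mul_single, mul_comm]

theorem iota_coeff [DecidableEq G] [DecidableEq S] (a : MonoidAlgebra K G) (y : MonoidAlgebra K S)
    (g : G) (s : S) :
    (iotaG (S := S) a * iotaS (G := G) y).coeff (g, s) = a.coeff g * y.coeff s := by
  induction a using MonoidAlgebra.induction_linear with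
  | zero => simp
  | add a b ha hb => simp only [map_add, add_mul, coeff_add, Finsupp.add_apply, ha, hb]
  | single g' c =>
    induction y using MonoidAlgebra.induction_linear with
    | zero => simp
    | add a b ha hb => simp only [map_add, mul_add, coeff_add, Finsupp.add_apply, ha, hb]
    | single s' d =>
      rw [iotaG_single, iotaS_single, single_mul_single]
      simp only [coeff_single, mul_one, one_mul, Finsupp.single_apply, Prod.mk.injEq]
      by_cases h1 : g' = g <;> by_cases h2 : s' = s <;> simp [h1, h2]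

end Product

end Vale.Agent.Lib.P194
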