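import Mathlib
import Vale.Agent.Lib.P194.Wreath

set_option linter.unusedSectionVars false
set_option linter.unusedSimpArgs false
set_option linter.style.haveILetI false

noncomputable section

namespace Vale.Agent.Lib.P194

open MonoidAlgebra

universe u v w

section Assemble

variable {K : Type v} [Field K] {G : Type u} [Group G]
variable {I : Type w} [Fintype I] [DecidableEq I] {q : ℕ} [NeZero q]

theorem swap_aux (i₀ j k : I) (h : j ≠ k) : (Equiv.swap i₀ j * Equiv.swap i₀ k)⁻¹ i₀ ≠ i₀ := by
  rw [mul_inv_rev, Equiv.swap_inv, Equiv.swap_inv, Equiv.Perm.mul_apply, Equiv.swap_apply_left]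
  by_cases h1 : j = i₀
  · subst h1
    simpa using Ne.symm h
  · rw [Equiv.swap_apply_of_ne_of_ne h1 h]
    exact h1

/-- Matrix units of the wreath type group algebra. -/
def unitsE (i₀ : I) (i j : I) : MonoidAlgebra K (PS I q) :=
  pt K (blockPerm (Equiv.swap i₀ i)) * eIdem K i₀ * pt K (blockPerm (Equiv.swap i₀ j))

theorem unitsE_mul (hq : (q : K) ≠ 0) (i₀ : I) (i j k l : I) :
    unitsE (K := K) (q := q) i₀ i j * unitsE i₀ k l = if j = k then unitsE i₀ i l else 0 := by
  unfold unitsE
  have h1 : pt K (blockPerm (Equiv.swap i₀ i)) * eIdem K i₀ * pt K (blockPerm (Equiv.swap i₀ j)) *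
        (pt K (blockPerm (Equiv.swap i₀ k)) * eIdem K i₀ * pt K (blockPerm (Equiv.swap i₀ l)))
      = pt K (blockPerm (Equiv.swap i₀ i)) *
        (eIdem K i₀ * pt K (blockPerm (Equiv.swap i₀ j * Equiv.swap i₀ k)) * eIdem K (q := q) i₀) *
        pt K (blockPerm (Equiv.swap i₀ l)) := by
    rw [blockPerm_mul, ← pt_mul]
    simp only [mul_assoc]
  rw [h1]
  by_cases h : j = k
  · subst h
    rw [Equiv.swap_mul_self, blockPerm_one, pt_one, mul_one, eIdem_mul_eIdem hq, if_pos rfl]
  · rw [eIdem_mul_pt_mul_eIdem hq i₀ _ (swap_aux i₀ j k h), if_neg h]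
    simp

theorem unitsE_self (i₀ : I) : unitsE (K := K) (q := q) i₀ i₀ i₀ = eIdem K i₀ := by
  unfold unitsE
  rw [Equiv.swap_self]
  have : (Equiv.refl I) = (1 : Equiv.Perm I) := rfl
  rw [this, blockPerm_one, pt_one, one_mul, mul_one]

/-- Main construction: direct finiteness of `K[G × Perm (I × ZMod q)]` gives direct finiteness
of the matrix ring over `K[G]`. -/
theorem matrix_dedekind_of_wreath (hq : (q : K) ≠ 0) (h1 : (1 : ZMod q) ≠ 0) (i₀ : I)
    [IsDedekindFiniteMonoid (MonoidAlgebra K (G × PS I q))] :
    IsDedekindFiniteMonoid (Matrix I I (MonoidAlgebra K G)) := by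
  classical
  refine matrix_dedekind_of_units (iotaG (S := PS I q))
    (fun i j => iotaS (G := G) (unitsE (K := K) (q := q) i₀ i j)) ?_ ?_ i₀ ?_
  · intro i j k l
    rw [← map_mul, unitsE_mul hq]
    split_ifs <;> simp
  · intro a i j
    exact iota_commute _ _
  · intro a ha
    rw [unitsE_self] at ha
    have hne := eIdem_ne_zero (K := K) (q := q) hq i₀ h1
    obtain ⟨s, hs⟩ : ∃ s, (eIdem K (q := q) i₀).coeff s ≠ 0 := by
      by_contra hcon
      push Not at hcon
      apply hne
      ext s
      simpa using hcon s
    ext g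
    have := iota_coeff (K := K) a (eIdem K (q := q) i₀) g s
    rw [ha] at this
    simpa [hs] using this.symm

end Assemble

section RegularRep

variable {A : Type v} [Ring A] {H : Type w} [Group H] [Fintype H] [DecidableEq H]

/-- The permutation matrix of left multiplication. -/
def leftPerm (h : H) : Matrix H H A := Matrix.of fun u v => if u = h * v then 1 else 0

theorem leftPerm_mul (h k : H) : (leftPerm (A := A) (h * k) : Matrix H H A) =
    leftPerm h * leftPerm k := by
  ext u v
  simp only [leftPerm, Matrix.mul_apply, Matrix.of_apply, mul_assoc, mul_ite, mul_one, mul_zero]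
  rw [Finset.sum_eq_single (k * v)]
  · simp
  · intro w _ hw
    simp [hw]
  · simp

theorem leftPerm_one : (leftPerm (1 : H) : Matrix H H A) = 1 := by
  ext u v
  simp [leftPerm, Matrix.one_apply]

/-- Left multiplication permutation matrices as a homomorphism. -/
def leftPermHom : H →* Matrix H H A where
  toFun := leftPerm
  map_one' := leftPerm_one
  map_mul' := leftPerm_mul

theorem scalar_comm (a : A) (h : H) :
    Commute (Matrix.scalar H a) (leftPermHom h : Matrix H H A) := by
  unfold Commute SemiconjBy
  ext u v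
  simp only [leftPermHom, MonoidHom.coe_mk, OneHom.coe_mk, Matrix.scalar_apply,
    Matrix.diagonal_mul, Matrix.mul_diagonal, leftPerm, Matrix.of_apply]
  split_ifs <;> simp

/-- The regular representation of a group algebra of a finite group. -/
def regRep : MonoidAlgebra A H →+* Matrix H H A :=
  liftNCRingHom (Matrix.scalar H) leftPermHom scalar_comm

theorem regRep_apply (x : MonoidAlgebra A H) (u v : H) : regRep x u v = x.coeff (u * v⁻¹) := by
  induction x using MonoidAlgebra.induction_linear with
  | zero => simp
  | add a b ha hb => simp [map_add, ha, hb]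
  | single h a =>
    simp only [regRep, liftNCRingHom_single, leftPermHom, MonoidHom.coe_mk, OneHom.coe_mk,
      Matrix.scalar_apply, Matrix.diagonal_mul, leftPerm, Matrix.of_apply, coeff_single,
      Finsupp.single_apply]
    by_cases h1 : u = h * v
    · subst h1
      simp
    · have h2 : ¬ h = u * v⁻¹ := fun h' => h1 (by rw [h']; simp)
      simp [h1, h2]

theorem regRep_injective : Function.Injective (regRep : MonoidAlgebra A H →+* Matrix H H A) := by
  intro x y hxy
  ext u
  have := congrFun (congrFun hxy u) 1
  rw [regRep_apply, regRep_apply] at this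
  simpa using this

end RegularRep

section Forward

variable {K : Type v} [Field K] {G : Type u} [Group G]

/-- The easy direction: stable finiteness gives direct finiteness of products with finite groups. -/
theorem dedekind_product_of_stable [IsStablyFiniteRing (MonoidAlgebra K G)] (H : Type w) [Group H]
    [Finite H] : IsDedekindFiniteMonoid (MonoidAlgebra K (G × H)) := by
  classical
  letI := Fintype.ofFinite H
  let φ1 : MonoidAlgebra K (G × H) ≃+* MonoidAlgebra K (H × G) :=
    (domCongr K K (MulEquiv.prodComm (M := G) (N := H))).toRingEquiv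
  let φ2 : MonoidAlgebra K (H × G) ≃+* MonoidAlgebra (MonoidAlgebra K G) H := curryRingEquiv
  let φ : MonoidAlgebra K (G × H) →+* Matrix H H (MonoidAlgebra K G) :=
    regRep.comp (φ2.toRingHom.comp φ1.toRingHom)
  have hφ : Function.Injective φ := by
    intro x y hxy
    exact φ1.injective (φ2.injective (regRep_injective hxy))
  exact IsDedekindFiniteMonoid.of_injective φ hφ

end Forward

section Main

variable {K : Type v} [Field K] {G : Type u} [Group G]

/-- Passing between isomorphic finite permutation groups. -/
theorem dedekind_transport {H₁ : Type w} {H₂ : Type*} [Group H₁] [Group H₂] (e : H₁ ≃* H₂)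
    [IsDedekindFiniteMonoid (MonoidAlgebra K (G × H₂))] :
    IsDedekindFiniteMonoid (MonoidAlgebra K (G × H₁)) := by
  let φ : MonoidAlgebra K (G × H₁) ≃+* MonoidAlgebra K (G × H₂) :=
    (domCongr K K (MulEquiv.prodCongr (MulEquiv.refl G) e)).toRingEquiv
  exact IsDedekindFiniteMonoid.of_injective φ φ.injective

/-- The hard direction: products with symmetric groups give stable finiteness. -/
theorem stable_of_perm (h : ∀ m : ℕ, IsDedekindFiniteMonoid
    (MonoidAlgebra K (G × Equiv.Perm (Fin m)))) : IsStablyFiniteRing (MonoidAlgebra K G) := by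
  classical
  refine ⟨fun n => ?_⟩
  rcases Nat.eq_zero_or_pos n with rfl | hn
  · refine ⟨fun {a b} _ => ?_⟩
    exact Subsingleton.elim _ _
  · have i₀ : Fin n := ⟨0, hn⟩
    obtain ⟨q, hq0, hq, h1⟩ : ∃ q : ℕ, NeZero q ∧ (q : K) ≠ 0 ∧ 1 < q := by
      by_cases h2 : (2 : K) = 0
      · refine ⟨3, ⟨by norm_num⟩, ?_, by norm_num⟩
        have : ((3 : ℕ) : K) = 2 + 1 := by norm_num
        rw [this, h2]; simp
      · exact ⟨2, ⟨by norm_num⟩, by simpa using h2, by norm_num⟩
    haveI := hq0
    haveI : Fact (1 < q) := ⟨h1⟩
    have hone : (1 : ZMod q) ≠ 0 := one_ne_zero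
    let e : (Fin n × ZMod q) ≃ Fin (Fintype.card (Fin n × ZMod q)) := Fintype.equivFin _
    haveI := h (Fintype.card (Fin n × ZMod q))
    haveI : IsDedekindFiniteMonoid (MonoidAlgebra K (G × PS (Fin n) q)) :=
      dedekind_transport (H₂ := Equiv.Perm (Fin (Fintype.card (Fin n × ZMod q)))) e.permCongrHom
    exact matrix_dedekind_of_wreath (q := q) hq hone i₀

/-- Stable finiteness of `K[G]` is equivalent to direct finiteness of `K[G × H]` for all finite
groups `H`, and also to that for the symmetric groups alone. -/
theorem stable_tfae : List.TFAE [IsStablyFiniteRing (MonoidAlgebra K G),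
    ∀ (H : Type) [Group H] [Finite H], IsDedekindFiniteMonoid (MonoidAlgebra K (G × H)),
    ∀ m : ℕ, IsDedekindFiniteMonoid (MonoidAlgebra K (G × Equiv.Perm (Fin m)))] := by
  tfae_have 1 → 2 := fun h H _ _ => by
    haveI := h
    exact dedekind_product_of_stable H
  tfae_have 2 → 3 := fun h m => h (Equiv.Perm (Fin m))
  tfae_have 3 → 1 := stable_of_perm
  tfae_finish

end Main

end Vale.Agent.Lib.P194
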