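import Mathlib
import Vale.Agent.Lib.P194.Stable

set_option linter.unusedSectionVars false
set_option linter.unusedSimpArgs false
set_option linter.style.haveILetI false

noncomputable section

namespace Vale.Agent.Lib.P194

open MonoidAlgebra

universe u v w

section Lifting

variable {R : Type v} {F : Type w} [CommRing R] [Field F] {G : Type u} [Group G]

/-- Direct finiteness descends along a surjection of commutative rings split by an idempotent. -/
theorem dedekind_of_split (π : R →+* F) (hπ : Function.Surjective π) (z : R) (hz : π z = 1)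
    (hkill : ∀ x, π x = 0 → z * x = 0) [IsDedekindFiniteMonoid (MonoidAlgebra R G)] :
    IsDedekindFiniteMonoid (MonoidAlgebra F G) := by
  classical
  refine ⟨fun {a b} hab => ?_⟩
  let Pm : MonoidAlgebra R G →+* MonoidAlgebra F G := mapRingHom G π
  have hPm : Function.Surjective Pm := map_surjective (π : R →+ F) hπ
  obtain ⟨a', ha'⟩ := hPm a
  obtain ⟨b', hb'⟩ := hPm b
  let Z : MonoidAlgebra R G := single 1 z
  have hZc : ∀ y, Commute Z y := fun y => single_commute (fun m => Commute.one_left m) (fun r => Commute.all z r) y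
  have hZkill : ∀ y, Pm y = 0 → Z * y = 0 := by
    intro y hy
    ext g
    have h1 : π (y.coeff g) = 0 := by
      have := congrArg (fun w => w.coeff g) hy
      simpa [Pm, coeff_mapRingHom] using this
    simpa [Z, coeff_single_one_mul] using hkill _ h1
  have hPmZ : Pm Z = 1 := by
    simp [Pm, Z, hz, one_def]
  have hzz : z * (z - 1) = 0 := hkill _ (by simp [hz])
  have hZZ : Z * Z = Z := by
    have h : Z * (Z - 1) = 0 := hZkill _ (by simp [hPmZ])
    have h2 : Z * Z - Z = 0 := by rw [← h]; noncomm_ring
    exact sub_eq_zero.mp h2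
  have h1 : Z * (a' * b' - 1) = 0 := hZkill _ (by simp [ha', hb', hab])
  have h2 : Z * (a' * b') = Z := by
    have : Z * (a' * b') - Z = 0 := by rw [← h1]; noncomm_ring
    exact sub_eq_zero.mp this
  have e3 : (1 - Z) * (1 - Z) = 1 - Z := by noncomm_ring; rw [hZZ]; abel
  have e4 : Z * (1 - Z) = 0 := by noncomm_ring; rw [hZZ]; abel
  have e5 : (1 - Z) * Z = 0 := by noncomm_ring; rw [hZZ]; abel
  have h3 : (Z * a' + (1 - Z)) * (Z * b' + (1 - Z)) = 1 := by
    have t1 : Z * a' * (Z * b') = Z * (a' * b') := by
      rw [mul_assoc, ← mul_assoc a', (hZc a').eq.symm, mul_assoc Z a' b', ← mul_assoc, hZZ]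
    have t2 : Z * a' * (1 - Z) = 0 := by
      rw [mul_assoc, (((Commute.one_left _).sub_left (hZc a')).eq.symm), ← mul_assoc, e4, zero_mul]
    have t3 : (1 - Z) * (Z * b') = 0 := by rw [← mul_assoc, e5, zero_mul]
    rw [add_mul, mul_add, mul_add, t1, t2, t3, e3, h2]
    abel
  have h4 := mul_eq_one_symm h3
  have h5 : Z * (b' * a') = Z := by
    have t1 : Z * b' * (Z * a') = Z * (b' * a') := by
      rw [mul_assoc, ← mul_assoc b', (hZc b').eq.symm, mul_assoc Z b' a', ← mul_assoc, hZZ]
    have t2 : Z * b' * (1 - Z) = 0 := by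
      rw [mul_assoc, (((Commute.one_left _).sub_left (hZc b')).eq.symm), ← mul_assoc, e4, zero_mul]
    have t3 : (1 - Z) * (Z * a') = 0 := by rw [← mul_assoc, e5, zero_mul]
    rw [add_mul, mul_add, mul_add, t1, t2, t3, e3] at h4
    have h6 : Z * (b' * a') + (1 - Z) = 1 := by simpa using h4
    linear_combination (norm := abel) h6
  have h7 := congrArg Pm h5
  rw [map_mul, map_mul, hPmZ, one_mul, hb', ha'] at h7
  exact h7

end Lifting

section FiniteField

variable (p : ℕ) [Fact p.Prime] (F : Type w) [Field F] [Finite F] [CharP F p]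
variable {G : Type u} [Group G]

/-- Over a finite field of characteristic `p`, direct finiteness follows from that over the prime
field after taking a product with a finite cyclic group. -/
theorem dedekind_finite_field [IsDedekindFiniteMonoid
      (MonoidAlgebra (ZMod p) (G × Multiplicative (ZMod (Nat.card Fˣ))))] :
    IsDedekindFiniteMonoid (MonoidAlgebra F G) := by
  classical
  let n := Nat.card Fˣ
  let H := Multiplicative (ZMod n)
  haveI : Finite H := by
    haveI : NeZero n := ⟨Nat.card_pos.ne'⟩
    exact Finite.of_equiv (ZMod n) Multiplicative.ofAdd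
  let e : H ≃* Fˣ := zmodCyclicMulEquiv (inferInstance : IsCyclic Fˣ)
  let R := MonoidAlgebra (ZMod p) H
  -- the ring map to `F`
  let g : H →* F := (Units.coeHom F).comp e.toMonoidHom
  let π : R →+* F := liftNCRingHom (ZMod.castHom (dvd_refl p) F) g (fun x y => Commute.all _ _)
  have hπ : Function.Surjective π := by
    intro c
    by_cases hc : c = 0
    · exact ⟨0, by simp [hc]⟩
    · refine ⟨single (e.symm (Units.mk0 c hc)) 1, ?_⟩
      refine (liftNCRingHom_single _ _ _ _ _).trans ?_
      simp [g]
  -- Maschke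
  haveI hcard : NeZero ((Nat.card H : ℕ) : ZMod p) := by
    refine ⟨?_⟩
    have h1 : Nat.card H = Nat.card Fˣ := Nat.card_congr e.toEquiv
    have h2 : Nat.card Fˣ + 1 = Nat.card F := by
      have := Nat.card_units F
      have h3 : 1 ≤ Nat.card F := Nat.card_pos
      omega
    have h3 : ((Nat.card F : ℕ) : ZMod p) = 0 := by
      have : (p : ℕ) ∣ Nat.card F := by
        haveI := Fintype.ofFinite F
        rw [Nat.card_eq_fintype_card]
        exact (CharP.cast_eq_zero_iff F p _).1 (FiniteField.cast_card_eq_zero F)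
      exact (ZMod.natCast_eq_zero_iff _ _).2 this
    rw [h1]
    intro h4
    rw [← h2] at h3
    push_cast at h3
    rw [h4, zero_add] at h3
    exact one_ne_zero h3
  obtain ⟨J, hJ⟩ := MonoidAlgebra.Submodule.exists_isCompl (k := ZMod p) (G := H) (V := R)
    (RingHom.ker π : Submodule R R)
  -- the idempotent
  have hsup : (RingHom.ker π : Submodule R R) ⊔ J = ⊤ := hJ.sup_eq_top
  have hone : (1 : R) ∈ (RingHom.ker π : Submodule R R) ⊔ J := by rw [hsup]; trivial
  obtain ⟨y, hy, z, hz, hyz⟩ := Submodule.mem_sup.1 hone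
  have hπy : π y = 0 := hy
  have hπz : π z = 1 := by
    have := congrArg π hyz
    rw [map_add, hπy, zero_add, map_one] at this
    exact this
  have hkill : ∀ x, π x = 0 → z * x = 0 := by
    intro x hx
    have h1 : z * x ∈ (RingHom.ker π : Submodule R R) := by
      show π (z * x) = 0
      rw [map_mul, hx, mul_zero]
    have h2 : z * x ∈ J := by
      rw [mul_comm]
      exact J.smul_mem x hz
    have h3 : z * x ∈ (RingHom.ker π : Submodule R R) ⊓ J := ⟨h1, h2⟩
    rw [hJ.inf_eq_bot] at h3
    simpa using h3
  -- transport direct finiteness along the currying equivalence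
  haveI : IsDedekindFiniteMonoid (MonoidAlgebra R G) :=
    IsDedekindFiniteMonoid.of_injective
      (curryRingEquiv (R := ZMod p) (M := G) (N := H)).symm
      (curryRingEquiv (R := ZMod p) (M := G) (N := H)).symm.injective
  exact dedekind_of_split π hπ z hπz hkill

end FiniteField

section Jacobson

theorem int_isJacobsonRing : IsJacobsonRing ℤ := by
  rw [isJacobsonRing_iff_prime_eq]
  intro P hP
  by_cases hbot : P = ⊥
  · subst hbot
    apply le_antisymm _ Ideal.le_jacobson
    intro n hn
    rw [Ideal.mem_jacobson_bot] at hn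
    have h1 := hn 1
    have h2 := hn 2
    rw [Int.isUnit_iff] at h1 h2
    simp only [Ideal.mem_bot]
    omega
  · haveI : P.IsMaximal := hP.isMaximal hbot
    exact Ideal.jacobson_eq_self_of_isMaximal

/-- A field that is finitely generated as an abelian group is finite. -/
theorem finite_of_module_finite_int (F : Type w) [Field F] [Module.Finite ℤ F] : Finite F := by
  obtain ⟨p, hp⟩ := CharP.exists F
  rcases CharP.char_is_prime_or_zero F p with hpp | h0
  · refine Module.finite_of_fg_torsion F ?_
    intro x
    refine ⟨⟨(p : ℤ), mem_nonZeroDivisors_of_ne_zero (by exact_mod_cast hpp.ne_zero)⟩, ?_⟩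
    show (p : ℤ) • x = 0
    rw [zsmul_eq_mul]
    simp
  · subst h0
    exfalso
    haveI : CharZero F := CharP.charP_to_charZero F
    have h1 : IsIntegral ℤ (algebraMap ℚ F (1 / 2 : ℚ)) := Algebra.IsIntegral.isIntegral _
    have h2 : IsIntegral ℤ (1 / 2 : ℚ) :=
      (isIntegral_algebraMap_iff (algebraMap ℚ F).injective).1 h1
    obtain ⟨y, hy⟩ := IsIntegrallyClosed.isIntegral_iff.1 h2
    have h3 : (y : ℚ) * 2 = 1 := by
      have : (y : ℚ) = 1 / 2 := by simpa using hy
      rw [this]; norm_num
    have h4 : y * 2 = 1 := by exact_mod_cast h3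
    omega

end Jacobson

section Descent

variable {K : Type v} [Field K] {G : Type u} [Group G]

/-- Direct finiteness over all finite fields compatible with `K` gives direct finiteness
over `K`. -/
theorem dedekind_of_finite_fields
    (P : ∀ (F : Type v) [Field F] [Finite F], (∀ n : ℕ, (n : K) = 0 → (n : F) = 0) →
      IsDedekindFiniteMonoid (MonoidAlgebra F G)) :
    IsDedekindFiniteMonoid (MonoidAlgebra K G) := by
  classical
  refine ⟨fun {a b} hab => ?_⟩
  by_contra hne
  obtain ⟨g₀, hg₀⟩ : ∃ g₀, (b * a - 1).coeff g₀ ≠ 0 := by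
    by_contra hcon
    push Not at hcon
    apply hne
    have : b * a - 1 = 0 := by
      ext g
      simpa using hcon g
    exact sub_eq_zero.mp this
  set c := (b * a - 1).coeff g₀ with hc
  let S : Finset K := a.coeff.frange ∪ b.coeff.frange ∪ {c⁻¹}
  let A : Subalgebra ℤ K := Algebra.adjoin ℤ (S : Set K)
  have hSA : ∀ x ∈ S, x ∈ A := fun x hx => Algebra.subset_adjoin hx
  have hcoeffA : ∀ g, a.coeff g ∈ A := by
    intro g
    by_cases h : a.coeff g = 0
    · rw [h]; exact A.zero_mem
    · apply hSA
      simp only [S, Finset.mem_union]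
      exact Or.inl (Or.inl (Finsupp.mem_frange_of_mem (by simpa using h)))
  have hcoeffB : ∀ g, b.coeff g ∈ A := by
    intro g
    by_cases h : b.coeff g = 0
    · rw [h]; exact A.zero_mem
    · apply hSA
      simp only [S, Finset.mem_union]
      exact Or.inl (Or.inr (Finsupp.mem_frange_of_mem (by simpa using h)))
  have hinvA : c⁻¹ ∈ A := hSA _ (by simp [S])
  let ι : A →+* K := (algebraMap A K)
  have hι : Function.Injective ι := Subtype.val_injective
  let ιG : MonoidAlgebra A G →+* MonoidAlgebra K G := mapRingHom G ι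
  have hιG : Function.Injective ιG := map_injective (ι : A →+ K) hι
  have hlift : ∀ x : MonoidAlgebra K G, (∀ g, x.coeff g ∈ A) → ∃ x', ιG x' = x := by
    intro x hx
    have : x ∈ Set.range (map (M := G) (ι : A →+ K)) := by
      rw [range_map]
      intro i
      exact ⟨⟨_, hx i⟩, rfl⟩
    exact this
  obtain ⟨a', ha'⟩ := hlift a hcoeffA
  obtain ⟨b', hb'⟩ := hlift b hcoeffB
  have hab' : a' * b' = 1 := hιG (by rw [map_mul, map_one, ha', hb', hab])
  let c' : A := (b' * a' - 1).coeff g₀
  have hc' : ι c' = c := by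
    have : ιG (b' * a' - 1) = b * a - 1 := by rw [map_sub, map_mul, map_one, ha', hb']
    rw [hc, ← this]
    exact (coeff_mapRingHom ι _ _).symm
  have hcne : c ≠ 0 := hg₀
  have hunit : IsUnit c' := by
    refine IsUnit.of_mul_eq_one (⟨c⁻¹, hinvA⟩ : A) ?_
    apply hι
    rw [map_mul, map_one, hc']
    exact mul_inv_cancel₀ hcne
  haveI : Nontrivial A := inferInstance
  obtain ⟨m, hm⟩ := Ideal.exists_maximal A
  letI hfield : Field (A ⧸ m) := Ideal.Quotient.field m
  let π : A →+* (A ⧸ m) := Ideal.Quotient.mk m
  haveI hft : Algebra.FiniteType ℤ A :=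
    (Subalgebra.fg_iff_finiteType A).mp (Subalgebra.fg_adjoin_finset S)
  haveI hft2 : Algebra.FiniteType ℤ (A ⧸ m) :=
    Algebra.FiniteType.of_surjective (Ideal.Quotient.mkₐ ℤ m) (Ideal.Quotient.mkₐ_surjective ℤ m)
  haveI := int_isJacobsonRing
  haveI hfin : Module.Finite ℤ (A ⧸ m) := finite_of_finite_type_of_isJacobsonRing ℤ (A ⧸ m)
  haveI hfin2 : Finite (A ⧸ m) := finite_of_module_finite_int (A ⧸ m)
  have hchar : ∀ n : ℕ, (n : K) = 0 → (n : A ⧸ m) = 0 := by
    intro n hn
    have h1 : (n : A) = 0 := hι (by simpa using hn)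
    have h2 : π (n : A) = (n : A ⧸ m) := map_natCast π n
    rw [← h2, h1, map_zero]
  haveI hd := P (A ⧸ m) hchar
  let πG : MonoidAlgebra A G →+* MonoidAlgebra (A ⧸ m) G := mapRingHom G π
  have h1 : πG a' * πG b' = 1 := by rw [← map_mul, hab', map_one]
  have h2 : πG b' * πG a' = 1 := mul_eq_one_symm h1
  have h3 : πG (b' * a' - 1) = 0 := by rw [map_sub, map_mul, h2, map_one, sub_self]
  have h4 : π c' = 0 := by
    have h6 : (πG (b' * a' - 1)).coeff g₀ = π c' := coeff_mapRingHom π _ _
    rw [h3] at h6
    rw [← h6]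
    simp
  have h5 : IsUnit (π c') := hunit.map π
  rw [h4] at h5
  exact not_isUnit_zero h5

end Descent

section Main

/-- The reduction to prime fields in fixed characteristic. -/
theorem stable_of_prime_field (p : ℕ) [Fact p.Prime]
    (h : ∀ (G : Type u) [Group G], IsDedekindFiniteMonoid (MonoidAlgebra (ZMod p) G))
    (K : Type v) [Field K] [CharP K p] (G : Type u) [Group G] :
    IsStablyFiniteRing (MonoidAlgebra K G) := by
  refine stable_of_perm fun m => ?_
  refine dedekind_of_finite_fields fun F _ _ hF => ?_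
  haveI : CharP F p := by
    have hp0 : ((p : ℕ) : F) = 0 := hF p (CharP.cast_eq_zero K p)
    exact (CharP.charP_iff_prime_eq_zero (Fact.out : p.Prime)).2 hp0
  haveI := h ((G × Equiv.Perm (Fin m)) × Multiplicative (ZMod (Nat.card Fˣ)))
  exact dedekind_finite_field p F

/-- The reduction to prime fields, over all characteristics at once. -/
theorem stable_of_all_prime_fields
    (h : ∀ (p : ℕ) [Fact p.Prime] (G : Type u) [Group G],
      IsDedekindFiniteMonoid (MonoidAlgebra (ZMod p) G))
    (K : Type v) [Field K] (G : Type u) [Group G] :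
    IsStablyFiniteRing (MonoidAlgebra K G) := by
  refine stable_of_perm fun m => ?_
  refine dedekind_of_finite_fields fun F _ _ _ => ?_
  haveI := Fintype.ofFinite F
  obtain ⟨p, hchar, -, hp, -⟩ := FiniteField.card' F
  haveI : Fact p.Prime := ⟨hp⟩
  haveI := h p ((G × Equiv.Perm (Fin m)) × Multiplicative (ZMod (Nat.card Fˣ)))
  exact dedekind_finite_field p F

end Main

end Vale.Agent.Lib.P194
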