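import Mathlib
import Vale.Agent.Lib.P194.Prime

set_option linter.unusedSectionVars false
set_option linter.unusedSimpArgs false
set_option linter.style.haveILetI false

noncomputable section

namespace Vale.Agent.Lib.P194

open MonoidAlgebra

universe u v w

section Kernel

variable {R : Type v} [Ring R] {A : Type u} {Γ : Type u} {G : Type w}

theorem coeff_mapDomain_eq_sum {B : Type*} [DecidableEq B] (ψ : A → B) (x : MonoidAlgebra R A)
    (c : B) :
    (mapDomain ψ x).coeff c = x.coeff.sum fun w r => if ψ w = c then r else 0 := by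
  simp only [mapDomain, coeff_ofCoeff, Finsupp.mapDomain, Finsupp.sum_apply, Finsupp.single_apply]

/-- If the fibres of `ψ` on the support of `x` agree with the fibres of `φ`, and `x` dies under
`φ`, then `x` dies under `ψ`. -/
theorem mapDomain_eq_zero_of_fibres (φ : A → G) (ψ : A → Γ) (π : Γ → G) (hπ : ∀ w, π (ψ w) = φ w)
    (x : MonoidAlgebra R A)
    (hfib : ∀ w ∈ x.coeff.support, ∀ w' ∈ x.coeff.support, φ w = φ w' → ψ w = ψ w')
    (hx : mapDomain φ x = 0) : mapDomain ψ x = 0 := by
  classical
  ext c
  rw [coeff_mapDomain_eq_sum]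
  by_cases h : ∃ w₀ ∈ x.coeff.support, ψ w₀ = c
  · obtain ⟨w₀, hw₀, rfl⟩ := h
    have h1 : (mapDomain φ x).coeff (φ w₀) = 0 := by rw [hx]; simp
    rw [coeff_mapDomain_eq_sum] at h1
    rw [coeff_zero, Finsupp.zero_apply]
    refine Eq.trans ?_ h1
    unfold Finsupp.sum
    apply Finset.sum_congr rfl
    intro w hw
    have : ψ w = ψ w₀ ↔ φ w = φ w₀ :=
      ⟨fun e => by rw [← hπ, ← hπ, e], fun e => hfib w hw w₀ hw₀ e⟩
    simp only [this]
  · push Not at h
    rw [coeff_zero, Finsupp.zero_apply]
    unfold Finsupp.sum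
    apply Finset.sum_eq_zero
    intro w hw
    dsimp only
    rw [if_neg (h w hw)]

end Kernel

section Reduction

variable {R : Type v} [Ring R] {G : Type u} [Group G]

/-- Direct finiteness over all finitely presented groups gives direct finiteness over all groups.
-/
theorem dedekind_of_presented
    (h : ∀ (n : ℕ) (s : Set (FreeGroup (Fin n))), s.Finite →
      IsDedekindFiniteMonoid (MonoidAlgebra R (PresentedGroup s))) :
    IsDedekindFiniteMonoid (MonoidAlgebra R G) := by
  classical
  refine ⟨fun {a b} hab => ?_⟩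
  let T : Finset G := a.coeff.support ∪ b.coeff.support
  let n := T.card
  let e : Fin n ≃ T := T.equivFin.symm
  let f : Fin n → G := fun i => (e i : G)
  let φ : FreeGroup (Fin n) →* G := FreeGroup.lift f
  have hφs : ∀ g ∈ T, ∃ w, φ w = g := by
    intro g hg
    refine ⟨FreeGroup.of (e.symm ⟨g, hg⟩), ?_⟩
    simp [φ, f]
  -- lifts of elements supported in `T`
  have hlift : ∀ y : MonoidAlgebra R G, y.coeff.support ⊆ T →
      ∃ y' : MonoidAlgebra R (FreeGroup (Fin n)), mapDomain φ y' = y := by
    intro y hy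
    choose w hw using fun g : T => hφs g g.2
    refine ⟨∑ g ∈ T.attach, single (w g) (y.coeff g), ?_⟩
    have hadd : ∀ (s : Finset T) (F : T → MonoidAlgebra R (FreeGroup (Fin n))),
        mapDomain φ (∑ g ∈ s, F g) = ∑ g ∈ s, mapDomain φ (F g) := by
      intro s F
      refine Finset.induction_on s (by simp) ?_
      intro g s hg ih
      rw [Finset.sum_insert hg, Finset.sum_insert hg, mapDomain_add, ih]
    rw [hadd]
    simp only [mapDomain_single, hw]
    ext g
    rw [coeff_sum]
    simp only [coeff_single, Finsupp.coe_finsetSum, Finset.sum_apply, Finsupp.single_apply]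
    by_cases hg : g ∈ T
    · rw [Finset.sum_eq_single (⟨g, hg⟩ : T)]
      · simp
      · rintro ⟨g', hg'⟩ _ hne
        have : g' ≠ g := fun h' => hne (Subtype.ext h')
        simp [this]
      · intro hnot
        exact absurd (Finset.mem_attach _ _) hnot
    · have hy0 : y.coeff g = 0 := by
        by_contra hne
        exact hg (hy (by simpa using hne))
      rw [hy0]
      apply Finset.sum_eq_zero
      rintro ⟨g', hg'⟩ _
      have : g' ≠ g := fun h' => hg (h' ▸ hg')
      simp [this]
  obtain ⟨a', ha'⟩ := hlift a Finset.subset_union_left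
  obtain ⟨b', hb'⟩ := hlift b Finset.subset_union_right
  let Φ : MonoidAlgebra R (FreeGroup (Fin n)) →+* MonoidAlgebra R G := mapDomainRingHom R φ
  have hΦ : ∀ y, Φ y = mapDomain φ y := fun y => rfl
  set x := a' * b' - 1 with hx
  have hxz : mapDomain φ x = 0 := by
    rw [← hΦ, hx, map_sub, map_mul, map_one, hΦ, hΦ, ha', hb', hab, sub_self]
  -- the relators
  let s : Set (FreeGroup (Fin n)) :=
    ((x.coeff.support ×ˢ x.coeff.support).filter (fun p => φ p.1 = φ p.2)).image
      (fun p => p.1⁻¹ * p.2)
  have hs : s.Finite := Finset.finite_toSet _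
  have hsφ : ∀ r ∈ s, FreeGroup.lift f r = 1 := by
    intro r hr
    simp only [s, Finset.coe_image, Set.mem_image, Finset.mem_coe, Finset.mem_filter,
      Finset.mem_product] at hr
    obtain ⟨p, ⟨_, hp⟩, rfl⟩ := hr
    show φ (p.1⁻¹ * p.2) = 1
    rw [map_mul, map_inv, hp, inv_mul_cancel]
  haveI := h n s hs
  let ψ : FreeGroup (Fin n) →* PresentedGroup s := PresentedGroup.mk s
  let π : PresentedGroup s →* G := PresentedGroup.toGroup hsφ
  have hπ : ∀ w, π (ψ w) = φ w := by
    intro w
    have : π.comp ψ = φ := by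
      ext i
      show π (PresentedGroup.of i) = φ (FreeGroup.of i)
      rw [PresentedGroup.toGroup.of]
      simp [φ]
    exact congrArg (fun F => F w) this
  have hfib : ∀ w ∈ x.coeff.support, ∀ w' ∈ x.coeff.support, φ w = φ w' → ψ w = ψ w' := by
    intro w hw w' hw' hww
    have hr : w⁻¹ * w' ∈ s := by
      simp only [s, Finset.coe_image, Set.mem_image, Finset.mem_coe, Finset.mem_filter,
        Finset.mem_product]
      exact ⟨(w, w'), ⟨⟨hw, hw'⟩, hww⟩, rfl⟩
    have h1 : ψ (w⁻¹ * w') = 1 := PresentedGroup.one_of_mem hr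
    rw [map_mul, map_inv, inv_mul_eq_one] at h1
    exact h1
  have hx0 : mapDomain ψ x = 0 :=
    mapDomain_eq_zero_of_fibres φ ψ π hπ x hfib hxz
  let Ψ : MonoidAlgebra R (FreeGroup (Fin n)) →+* MonoidAlgebra R (PresentedGroup s) :=
    mapDomainRingHom R ψ
  let Pr : MonoidAlgebra R (PresentedGroup s) →+* MonoidAlgebra R G := mapDomainRingHom R π
  have hPr : ∀ y, Pr (Ψ y) = Φ y := by
    intro y
    have : Pr.comp Ψ = Φ := by
      rw [← mapDomainRingHom_comp]
      have hc : π.comp ψ = φ := MonoidHom.ext hπ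
      rw [hc]
    exact congrArg (fun F => F y) this
  have h1 : Ψ a' * Ψ b' = 1 := by
    have : Ψ x = 0 := hx0
    rw [hx, map_sub, map_mul, map_one] at this
    exact sub_eq_zero.mp this
  have h2 : Ψ b' * Ψ a' = 1 := mul_eq_one_symm h1
  have h3 := congrArg Pr h2
  rw [map_mul, map_one, hPr, hPr, hΦ, hΦ, ha', hb'] at h3
  exact h3

end Reduction

section Final

/-- Fixed group and prime: stable finiteness over the prime field passes to all fields of that
characteristic. -/
theorem stable_of_stable_prime (p : ℕ) [Fact p.Prime] (K : Type v) [Field K] [CharP K p]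
    (G : Type u) [Group G] [IsStablyFiniteRing (MonoidAlgebra (ZMod p) G)] :
    IsStablyFiniteRing (MonoidAlgebra K G) := by
  refine stable_of_perm fun m => ?_
  refine dedekind_of_finite_fields fun F _ _ hF => ?_
  haveI : CharP F p := by
    have hp0 : ((p : ℕ) : F) = 0 := hF p (CharP.cast_eq_zero K p)
    exact (CharP.charP_iff_prime_eq_zero (Fact.out : p.Prime)).2 hp0
  haveI hfin : Finite (Multiplicative (ZMod (Nat.card Fˣ))) := by
    haveI : NeZero (Nat.card Fˣ) := ⟨Nat.card_pos.ne'⟩
    exact Finite.of_equiv (ZMod (Nat.card Fˣ)) Multiplicative.ofAdd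
  haveI h1 : IsDedekindFiniteMonoid (MonoidAlgebra (ZMod p)
      (G × (Equiv.Perm (Fin m) × Multiplicative (ZMod (Nat.card Fˣ))))) :=
    dedekind_product_of_stable _
  let iso : ((G × Equiv.Perm (Fin m)) × Multiplicative (ZMod (Nat.card Fˣ))) ≃*
      (G × (Equiv.Perm (Fin m) × Multiplicative (ZMod (Nat.card Fˣ)))) :=
    MulEquiv.prodAssoc
  let φ : MonoidAlgebra (ZMod p) ((G × Equiv.Perm (Fin m)) × Multiplicative (ZMod (Nat.card Fˣ)))
      ≃+* MonoidAlgebra (ZMod p) (G × (Equiv.Perm (Fin m) × Multiplicative (ZMod (Nat.card Fˣ)))) :=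
    (domCongr (ZMod p) (ZMod p) iso).toRingEquiv
  haveI : IsDedekindFiniteMonoid (MonoidAlgebra (ZMod p)
      ((G × Equiv.Perm (Fin m)) × Multiplicative (ZMod (Nat.card Fˣ)))) :=
    IsDedekindFiniteMonoid.of_injective φ φ.injective
  exact dedekind_finite_field p F

/-- Transfer of direct finiteness to the prime field from a lift of the coefficient field and
of the group to higher universes. -/
theorem dedekind_of_ulift (p : ℕ) [Fact p.Prime] (Γ : Type)  [Group Γ]
    (h : IsDedekindFiniteMonoid (MonoidAlgebra (ULift.{v} (ZMod p)) (ULift.{u} Γ))) :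
    IsDedekindFiniteMonoid (MonoidAlgebra (ZMod p) Γ) := by
  let f : ZMod p →+* ULift.{v} (ZMod p) := (ULift.ringEquiv (R := ZMod p)).symm.toRingHom
  let g : Γ →* ULift.{u} Γ := (MulEquiv.ulift (α := Γ)).symm.toMonoidHom
  let φ : MonoidAlgebra (ZMod p) Γ →+* MonoidAlgebra (ULift.{v} (ZMod p)) (ULift.{u} Γ) :=
    (mapDomainRingHom _ g).comp (mapRingHom Γ f)
  have hf : Function.Injective f := (ULift.ringEquiv (R := ZMod p)).symm.injective
  have hg : Function.Injective g := (MulEquiv.ulift (α := Γ)).symm.injective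
  have hφ : Function.Injective φ := by
    intro x y hxy
    have h1 := mapDomain_injective hg hxy
    exact map_injective f.toAddMonoidHom hf h1
  exact IsDedekindFiniteMonoid.of_injective φ hφ

/-- All the reductions put together. -/
theorem main_statement :
    (∀ (K : Type v) [Field K] (G : Type u) [Group G],
      List.TFAE [IsStablyFiniteRing (MonoidAlgebra K G),
        ∀ (H : Type) [Group H] [Finite H], IsDedekindFiniteMonoid (MonoidAlgebra K (G × H)),
        ∀ m : ℕ, IsDedekindFiniteMonoid (MonoidAlgebra K (G × Equiv.Perm (Fin m)))]) ∧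
    (∀ (p : ℕ) [Fact p.Prime] (G : Type u) [Group G],
      IsStablyFiniteRing (MonoidAlgebra (ZMod p) G) →
        ∀ (K : Type v) [Field K] [CharP K p], IsStablyFiniteRing (MonoidAlgebra K G)) ∧
    (∀ (p : ℕ) [Fact p.Prime],
      (∀ (Γ : Type) [Group Γ] [Group.IsFinitelyPresented Γ],
        IsDedekindFiniteMonoid (MonoidAlgebra (ZMod p) Γ)) ↔
      ∀ (K : Type v) [Field K] [CharP K p] (G : Type u) [Group G],
        IsStablyFiniteRing (MonoidAlgebra K G)) ∧
    ((∀ (p : ℕ) [Fact p.Prime] (Γ : Type) [Group Γ] [Group.IsFinitelyPresented Γ],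
        IsDedekindFiniteMonoid (MonoidAlgebra (ZMod p) Γ)) ↔
      ∀ (K : Type v) [Field K] (G : Type u) [Group G],
        IsStablyFiniteRing (MonoidAlgebra K G)) := by
  refine ⟨fun K _ G _ => stable_tfae, ?_, ?_, ?_⟩
  · intro p _ G _ h K _ _
    haveI := h
    exact stable_of_stable_prime p K G
  · intro p _
    constructor
    · intro h K _ _ G _
      refine stable_of_prime_field p (fun G' _ => ?_) K G
      refine dedekind_of_presented fun n s hs => ?_
      haveI : Finite s := hs
      exact h _
    · intro h Γ _ _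
      apply dedekind_of_ulift.{u, v} p Γ
      haveI : CharP (ULift.{v} (ZMod p)) p := by
        exact (CharP.charP_iff_prime_eq_zero (Fact.out : p.Prime)).2 (by
          apply ULift.ext
          simp)
      haveI := h (ULift.{v} (ZMod p)) (ULift.{u} Γ)
      infer_instance
  · constructor
    · intro h K _ G _
      refine stable_of_all_prime_fields (fun p _ G' _ => ?_) K G
      refine dedekind_of_presented fun n s hs => ?_
      haveI : Finite s := hs
      exact h p _
    · intro h p _ Γ _ _
      apply dedekind_of_ulift.{u, v} p Γ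
      haveI := h (ULift.{v} (ZMod p)) (ULift.{u} Γ)
      infer_instance

end Final

end Vale.Agent.Lib.P194
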