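import Mathlib
import Vale.Agent.Lib.P201.Final4

noncomputable section

namespace Vale.Agent.Lib.P194

open MonoidAlgebra Vale.Agent.Lib.P201

universe u v w

section

variable {K : Type w} [Field K] {G : Type u} [Group G]

/-- Coefficients of the product of restrictions. -/
theorem res_mul_coeff {H : Subgroup G} {a₁ : G} {α : MonoidAlgebra K G}
    (hH : ∀ a ∈ α.coeff.support, a₁⁻¹ * a ∈ H) (b₀ : G) (β : MonoidAlgebra K G) (y : H) :
    (resL H a₁ α * resR H b₀ β).coeff y = (α * β).coeff (a₁ * y * b₀) := by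
  rw [coeff_mul_apply_left, coeff_mul_apply_left]
  have hbij : Set.BijOn (fun h : H => a₁ * (h : G))
      ((fun h : H => a₁ * (h : G)) ⁻¹' ↑α.coeff.support) ↑α.coeff.support := by
    refine ⟨fun x hx => hx, fun _ _ _ _ he => Subtype.ext (mul_left_cancel he), ?_⟩
    intro a ha
    exact ⟨⟨a₁⁻¹ * a, hH a ha⟩, by simpa using ha, by simp⟩
  have hs := Finsupp.sum_comapDomain (fun h : H => a₁ * (h : G)) α.coeff
    (fun a r => r * β.coeff (a⁻¹ * (a₁ * y * b₀))) hbij
  refine Eq.trans ?_ hs
  show Finsupp.sum _ _ = Finsupp.sum _ _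
  apply Finsupp.sum_congr
  intro x _
  simp only [Function.comp, resR_coeff, Subgroup.coe_mul, Subgroup.coe_inv]
  congr 2
  group

/-- The restriction of a right inverse is a right inverse. -/
theorem res_mul_one {H : Subgroup G} {a₁ : G} {α β : MonoidAlgebra K G}
    (hH : ∀ a ∈ α.coeff.support, a₁⁻¹ * a ∈ H) (h : α * β = 1) :
    resL H a₁ α * resR H a₁⁻¹ β = 1 := by
  classical
  refine MonoidAlgebra.ext (Finsupp.ext fun y => ?_)
  rw [res_mul_coeff hH, h, one_def, one_def, coeff_single, coeff_single, Finsupp.single_apply,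
    Finsupp.single_apply]
  by_cases hy : y = 1
  · subst hy
    simp
  · have h1 : (1 : H) ≠ y := fun e => hy e.symm
    have h2 : (1 : G) ≠ a₁ * y * a₁⁻¹ := by
      intro e
      apply h1
      apply Subtype.ext
      have : (y : G) = 1 := by
        have h3 : a₁ * y = a₁ := by
          have := congrArg (· * a₁) e.symm
          simpa using this
        simpa using h3
      rw [this]
      rfl
    simp [h1, h2]

/-- Passing from a one sided inverse in the group algebra of a subgroup to a two sided one. -/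
theorem mul_eq_one_of_restrict {H : Subgroup G} {a₁ : G} {α β : MonoidAlgebra K G}
    (hH : ∀ a ∈ α.coeff.support, a₁⁻¹ * a ∈ H) (h : α * β = 1)
    (hdf : resR H a₁⁻¹ β * resL H a₁ α = 1) : β * α = 1 := by
  classical
  set ι : MonoidAlgebra K H →+* MonoidAlgebra K G := mapDomainRingHom K H.subtype with hι
  set α₀ := resL H a₁ α with hα₀
  set β₀ := resR H a₁⁻¹ β with hβ₀
  have hcoef : ∀ (x : MonoidAlgebra K H) (g : H), (ι x).coeff (g : G) = x.coeff g := by
    intro x g
    have hinj : Function.Injective H.subtype := Subtype.val_injective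
    exact Finsupp.mapDomain_apply hinj x.coeff g
  have hcoef0 : ∀ (x : MonoidAlgebra K H) (g : G), g ∉ H → (ι x).coeff g = 0 := by
    intro x g hg
    refine Finsupp.mapDomain_of_notMem_range x.coeff g ?_
    rintro ⟨y, rfl⟩
    exact hg y.2
  have hα : α = single a₁ 1 * ι α₀ := by
    refine MonoidAlgebra.ext (Finsupp.ext fun g => ?_)
    rw [coeff_single_mul_apply, one_mul]
    by_cases hg : a₁⁻¹ * g ∈ H
    · have := hcoef α₀ ⟨_, hg⟩
      simp only at this
      rw [this, hα₀, resL_coeff]
      simp
    · rw [hcoef0 _ _ hg]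
      by_contra hn
      exact hg (hH g (Finsupp.mem_support_iff.mpr hn))
  set γ := ι β₀ * single a₁⁻¹ 1 with hγ
  have hγα : γ * α = 1 := by
    have e : γ * α = ι β₀ * (single a₁⁻¹ 1 * single a₁ 1) * ι α₀ := by
      rw [hγ, hα]
      simp only [mul_assoc]
    rw [e, single_mul_single, inv_mul_cancel, one_mul, ← one_def, mul_one, ← map_mul, hdf, map_one]
  have hγβ : γ = β := by
    have : γ * (α * β) = (γ * α) * β := (mul_assoc _ _ _).symm
    rw [h, mul_one, hγα, one_mul] at this
    exact this
  rw [← hγβ]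
  exact hγα

theorem flipA_one : flipA (1 : MonoidAlgebra K G) = 1 := by
  classical
  refine MonoidAlgebra.ext (Finsupp.ext fun x => ?_)
  rw [flipA_coeff, one_def, coeff_single, Finsupp.single_apply, Finsupp.single_apply]
  by_cases hx : x = 1
  · simp [hx]
  · have h1 : (1 : G) ≠ x := fun e => hx e.symm
    have h2 : (1 : G) ≠ x⁻¹ := fun e => hx (by simpa using e.symm)
    simp [h1, h2]

theorem eq_of_flipA_eq {f g : MonoidAlgebra K G} (h : flipA f = flipA g) : f = g := by
  refine MonoidAlgebra.ext (Finsupp.ext fun x => ?_)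
  have := congrArg (fun u => u.coeff x⁻¹) h
  simpa using this

end

/-- Direct finiteness for elements with small support. -/
theorem main_small :
    ∀ (K : Type w) [Field K] (G : Type u) [Group G] (n : ℕ),
      (n ≤ 3 ∨ (n ≤ 4 ∧ ∀ g : G, g ≠ 1 → ¬ IsOfFinOrder g)) →
      (∀ α β : MonoidAlgebra K G, α * β = 1 → β * α ≠ 1 → α.coeff.support.card ≤ n →
        TreeRigid.{u, v} (diffSubgroup (α.coeff.support : Set G))) ∧
      (∀ (V : Type v) (T : SimpleGraph V), T.IsTree → ∀ [MulAction G V],
        (∀ (g : G) (x y : V), T.Adj x y → T.Adj (g • x) (g • y)) →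
        (∀ (g : G) (x y : V), T.Adj x y → g • x = y → g • y ≠ x) →
        (∀ (x : V) (γ δ : MonoidAlgebra K (MulAction.stabilizer G x)),
          γ * δ = 1 → δ * γ = 1) →
        ∀ α β : MonoidAlgebra K G, (α.coeff.support.card ≤ n ∨ β.coeff.support.card ≤ n) →
          α * β = 1 → β * α = 1) := by
  intro K _ G _ n hn
  have hrigid : ∀ α β : MonoidAlgebra K G, α * β = 1 → β * α ≠ 1 → α.coeff.support.card ≤ n →
      TreeRigid.{u, v} (diffSubgroup (α.coeff.support : Set G)) := by
    intro α β h hne hcard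
    have hf : (1 - β * α) ≠ 0 := sub_ne_zero.mpr (fun e => hne e.symm)
    have hz : α * (1 - β * α) = 0 := by
      rw [mul_sub, mul_one, ← mul_assoc, h, one_mul, sub_self]
    exact (main_four.{u, v, w} K G n hn).1 α _ hf hz hcard
  refine ⟨hrigid, ?_⟩
  intro V T hT _ hadj hinv hstab
  have left : ∀ α β : MonoidAlgebra K G, α.coeff.support.card ≤ n → α * β = 1 → β * α = 1 := by
    intro α β hcard h
    by_contra hne
    have hR := hrigid α β h hne hcard
    have hsub : ∀ (g : diffSubgroup (α.coeff.support : Set G)) (x y : V),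
        T.Adj x y → T.Adj (g • x) (g • y) := fun g x y hxy => hadj g x y hxy
    have hfix : ∃ m : V, ∀ g : diffSubgroup (α.coeff.support : Set G), g • m = m := by
      rcases hR.2.2.2 V T hT hsub with hm | ⟨x, y, hxy, hg⟩
      · exact hm
      · refine ⟨x, fun g => ?_⟩
        rcases hg g with h1 | h1
        · exact h1.1
        · exact absurd h1.2 (hinv g x y hxy h1.1)
    obtain ⟨m, hm⟩ := hfix
    have hα : α ≠ 0 := by
      intro h0
      rw [h0, zero_mul] at h
      exact zero_ne_one h
    have hα' : α.coeff.support.Nonempty := by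
      rw [Finsupp.support_nonempty_iff]
      exact fun h0 => hα (MonoidAlgebra.coeff_inj.mp (by simpa using h0))
    obtain ⟨a₁, ha₁⟩ := hα'
    have hmem : ∀ a ∈ α.coeff.support, a₁⁻¹ * a ∈ MulAction.stabilizer G m := by
      intro a ha
      have h1 := hm ⟨a₁⁻¹ * a, mem_diffSubgroup (by exact_mod_cast ha₁) (by exact_mod_cast ha)⟩
      exact h1
    apply hne
    exact mul_eq_one_of_restrict hmem h (hstab m _ _ (res_mul_one hmem h))
  intro α β hcard h
  rcases hcard with hcard | hcard
  · exact left α β hcard h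
  · have h' : flipA β * flipA α = 1 := by rw [← flipA_mul, h, flipA_one]
    have h2 := left (flipA β) (flipA α) ((card_flipA β).trans hcard) h'
    rw [← flipA_mul, ← flipA_one (K := K) (G := G)] at h2
    exact eq_of_flipA_eq h2

end Vale.Agent.Lib.P194
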